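import Vale.Agent.P181.H983.TDefs

set_option autoImplicit false

/-!
# P181: one more column (S7)
-/

namespace Vale.Agent.P181.H983

open Vale.Agent.P181 Vale.Agent.P181.H280 Vale.Agent.P181.H270 Vale.Agent.P181.H73 Finset
  MvPolynomial

/-- One more column. -/
theorem s7 : S7 := by
  classical
  intro A _ _ L c φ x hx h w hw v hv0 hv
  rw [altC_apply]
  -- the arguments
  let y : Equiv.Perm (Fin (c + 3)) → Fin (c + 3) → A := fun σ p =>
    if p = 0 then v 0 else x (σ p) * v p
  have hy0 : ∀ σ, y σ 0 = v 0 := fun σ => if_pos rfl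
  have hyp : ∀ σ p, p ≠ 0 → y σ p = x (σ p) * v p := fun σ p hp => if_neg hp
  have hy : ∀ σ i, y σ i ∈ L ^ (c + 1) := by
    intro σ i
    by_cases hi : i = 0
    · rw [hi, hy0]
      exact hv0
    · rw [hyp σ i hi, pow_succ']
      exact Submodule.mul_mem_mul (hx _) (hv i hi)
  have h1 : ∀ σ : Equiv.Perm (Fin (c + 3)),
      ∑ i, φ (Function.update (fun p => w * y σ p) i (x (σ 0) * y σ i)) = 0 := by
    intro σ
    apply first_order' φ (fun p => w * y σ p) (fun p => x (σ 0) * y σ p) 0
    intro t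
    rw [← h (w + t • x (σ 0)) (L.add_mem hw (L.smul_mem t (hx _))) (y σ) (hy σ)]
    congr 1
    funext p
    rw [add_mul, smul_mul_assoc]
  have h2 : ∑ σ : Equiv.Perm (Fin (c + 3)), ((Equiv.Perm.sign σ : ℤ) : ℂ) *
      ∑ i, φ (Function.update (fun p => w * y σ p) i (x (σ 0) * y σ i)) = 0 :=
    Finset.sum_eq_zero (fun σ _ => by rw [h1, mul_zero])
  simp only [Finset.mul_sum] at h2
  rw [Finset.sum_comm, ← Finset.add_sum_erase univ _ (Finset.mem_univ (0 : Fin (c + 3)))] at h2
  have h3 : ∀ i ∈ univ.erase (0 : Fin (c + 3)), ∑ σ : Equiv.Perm (Fin (c + 3)),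
      ((Equiv.Perm.sign σ : ℤ) : ℂ) *
      φ (Function.update (fun p => w * y σ p) i (x (σ 0) * y σ i)) = 0 := by
    intro i hi
    have hi0 : i ≠ 0 := Finset.ne_of_mem_erase hi
    apply sum_sign_right_zero _ (Ne.symm hi0)
    intro σ
    congr 1
    funext p
    by_cases hpi : p = i
    · subst hpi
      rw [Function.update_self, Function.update_self, hyp _ _ hi0, hyp _ _ hi0]
      simp only [Equiv.Perm.coe_mul, Function.comp_apply, Equiv.swap_apply_left,
        Equiv.swap_apply_right]
      ring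
    · rw [Function.update_of_ne hpi, Function.update_of_ne hpi]
      by_cases hp0 : p = 0
      · rw [hp0, hy0, hy0]
      · rw [hyp _ _ hp0, hyp _ _ hp0, Equiv.Perm.coe_mul, Function.comp_apply,
          Equiv.swap_apply_of_ne_of_ne hp0 hpi]
  rw [Finset.sum_eq_zero h3, add_zero] at h2
  rw [← h2]
  apply Finset.sum_congr rfl
  intro σ _
  congr 2
  funext p
  by_cases hp : p = 0
  · subst hp
    rw [Function.update_self, if_pos rfl, hy0]
  · rw [Function.update_of_ne hp, if_neg hp, hyp _ _ hp]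
    ring

end Vale.Agent.P181.H983
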