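import Vale.Agent.P181.H983.Main
import Vale.Agent.P181.H964.S3
import Vale.Agent.P181.H270.S4a
import Vale.Agent.P181.H968.S4b
import Vale.Agent.P181.H869.S5
import Vale.Agent.P181.H879.S6
import Vale.Agent.P181.H907.Cap
import Vale.Agent.P181.H73.Asm
import Vale.Agent.P181.H530.Zero
import Vale.Agent.P181.H530.Pad

set_option autoImplicit false

/-!
# P181: the uniform theorem for tall shapes

For all `b ≥ a ≥ 3` and all shapes `lam` with `b - a + 2 ≤ lam_a ≤ b - b % a` the hybrid map is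
injective on the highest weight vectors of weight `lam`.
-/

open scoped TensorProduct

namespace Vale.Agent.P181.H983

open Vale.Agent.P181 Vale.Agent.P181.H280 Vale.Agent.P181.H270 Vale.Agent.P181.H73 Finset
  MvPolynomial

/-- The claim at all levels `k < a`. -/
theorem claim_all (c q : ℕ) : ∀ k, k ≤ c + 2 → Claim c q k := by
  intro k
  induction k with
  | zero =>
    intro _
    exact base c q
  | succ k ih =>
    intro hk
    exact step H964.S3.s3 H270.s4a H968.s4b H869.s5 H879.s6 H907.s8 (by omega) (ih (by omega))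

/-- A highest weight form with a negative last weight vanishes. -/
theorem neg_zero {r j : ℕ} {c : Fin (r + 1) → ℂ} {m : ℕ}
    {φ : MultilinearMap ℂ (fun _ : Fin (r + 1) => MvPolynomial (Fin (r + 1)) ℂ) ℂ}
    (hHW : HWForm (fun i => (X i : MvPolynomial (Fin (r + 1)) ℂ)) (fun i => pderiv i)
      (fun b => linS (r + 1) ^ b) j c φ)
    (hc : c (Fin.last r) = -((m + 1 : ℕ) : ℂ))
    (P : Fin (r + 1) → MvPolynomial (Fin (r + 1)) ℂ) (hP : ∀ i, P i ∈ linS (r + 1) ^ j) :
    φ P = 0 := by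
  classical
  apply multilinear_zero_of_span φ
    (Set.range (fun c : Fin j → Fin (r + 1) =>
      ∏ s, (X (c s) : MvPolynomial (Fin (r + 1)) ℂ))) _ P
  · intro i
    exact span_pow_eq _ _ (hP i)
  intro w hw
  choose d hd using hw
  have hw' : w = fun i => ∏ s, (X (d i s) : MvPolynomial (Fin (r + 1)) ℂ) := by
    funext i
    exact (hd i).symm
  have hwS : ∀ i, w i ∈ linS (r + 1) ^ j := by
    intro i
    rw [hw']
    exact prod_mem_pow _ _ (fun s => X_mem_linS _)
  let N : Fin (r + 1) → ℕ := fun i => (univ.filter fun s => d i s = Fin.last r).card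
  have h1 := hHW (Fin.last r) (Fin.last r) le_rfl w hwS
  rw [if_pos rfl, hc] at h1
  have h2 : ∀ i, φ (Function.update w i
      ((X (Fin.last r) : MvPolynomial (Fin (r + 1)) ℂ) * pderiv (Fin.last r) (w i))) =
      (N i : ℂ) * φ w := by
    intro i
    have h3 : w i = ∏ s, (X (d i s) : MvPolynomial (Fin (r + 1)) ℂ) := by rw [hw']
    rw [h3, euler_last, ← h3, MultilinearMap.map_update_smul, Function.update_eq_self,
      smul_eq_mul]
  rw [Finset.sum_congr rfl (fun i _ => h2 i), ← Finset.sum_mul, ← Nat.cast_sum] at h1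
  have h4 : (((∑ i, N i) + (m + 1) : ℕ) : ℂ) * φ w = 0 := by
    push_cast at h1 ⊢
    linear_combination h1
  refine (mul_eq_zero.1 h4).resolve_left (Nat.cast_ne_zero.2 ?_)
  omega

/-- The hybrid map kills no highest weight vector of a tall shape. -/
theorem vanish_uniform {c q k b : ℕ} (hk : k ≤ c + 2) (hb : b = (q + 1) * (c + 3) + k)
    (lam : Fin (c + 3) → ℕ) (hanti : ∀ i, lam (Fin.last (c + 2)) ≤ lam i)
    (h1 : q * (c + 3) + k + 2 ≤ lam (Fin.last (c + 2)))
    (h2 : lam (Fin.last (c + 2)) ≤ (q + 1) * (c + 3))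
    (l : (Fin (c + 3) → Fin b → (Fin (c + 3) → ℂ)) →₀ ℂ)
    (hx : elOf l ∈ hwSpace lam (plethAct (c + 3) b (c + 3)))
    (hF : Rel k (q + 1) (linS (c + 3)) (formOf l)) :
    ∀ P : Fin (c + 3) → MvPolynomial (Fin (c + 3)) ℂ, (∀ i, P i ∈ linS (c + 3) ^ b) →
      formOf l P = 0 := by
  have hHW : HWForm (xs (c + 3)) (fun i => pderiv i) (fun b => linS (c + 3) ^ b) b
      (fun i => (lam i : ℂ)) (formOf l) := by
    have h1 := hwForm_formOf (le_refl (c + 3)) lam l hx
    simpa using h1
  set m := lam (Fin.last (c + 2)) with hm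
  have hqq : (q + 1) * (c + 3) = q * (c + 3) + (c + 3) := by ring
  apply descent lam (formOf l) (formOf_symm l) hHW m (by omega) hanti
  have h3 : ∀ P : Fin (c + 3) → MvPolynomial (Fin (c + 3)) ℂ,
      (∀ i, P i ∈ linS (c + 3) ^ (c + 1)) →
      ((altC (xs (c + 3)))^[q * (c + 3) + k + 2] (formOf l)) P = 0 := by
    apply claim_all c q k hk (formOf l) (formOf_symm l) hF
    intro j hj P hP
    obtain ⟨t, ht⟩ : ∃ t, (q + 1) * (c + 3) + 1 = m + (t + 1) :=
      ⟨(q + 1) * (c + 3) - m, by omega⟩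
    apply neg_zero (j := j) (m := t) (c := fun i => (lam i : ℂ) - (((q + 1) * (c + 3) + 1 : ℕ) : ℂ))
      _ _ P hP
    · exact hwForm_iter lam (formOf l) hHW ((q + 1) * (c + 3) + 1) j (by omega)
    · rw [← hm, ht, Nat.cast_add]
      ring
  intro P hP
  obtain ⟨t, ht⟩ : ∃ t, m = t + (q * (c + 3) + k + 2) := ⟨m - (q * (c + 3) + k + 2), by omega⟩
  have h4 : (altC (fun i => (X i : MvPolynomial (Fin (c + 3)) ℂ)))^[m] (formOf l) =
      (altC (xs (c + 3)))^[t] ((altC (xs (c + 3)))^[q * (c + 3) + k + 2] (formOf l)) := by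
    rw [← Function.iterate_add_apply, ← ht]
  rw [h4]
  apply altC_iter_zero (linS (c + 3)) (xs (c + 3)) (xs_mem _) t (b - m) _ _ P hP
  intro Q hQ
  apply h3 Q
  intro i
  have h5 : c + 1 = b - m + t := by omega
  rw [h5]
  exact hQ i

/-- **Uniform theorem, `dim V = a`.** -/
theorem uniform_self {a b : ℕ} (ha : 3 ≤ a) (hab : a ≤ b) (lam : Fin a → ℕ)
    (hanti : Antitone lam) (h1 : ∀ i, b + 2 ≤ lam i + a)
    (h2 : ∀ i : Fin a, (i : ℕ) + 1 = a → lam i ≤ b - b % a) :
    plethMult a b a lam ≤ plethMult b a a lam := by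
  obtain ⟨c, rfl⟩ := Nat.exists_eq_add_of_le' ha
  have hlast : ∀ i, lam (Fin.last (c + 2)) ≤ lam i := fun i => hanti (Fin.le_last i)
  have hdm := Nat.div_add_mod b (c + 3)
  have hmod : b % (c + 3) < c + 3 := Nat.mod_lt _ (by omega)
  have hdiv : 1 ≤ b / (c + 3) := (Nat.one_le_div_iff (by omega)).2 hab
  obtain ⟨q, hq⟩ : ∃ q, b / (c + 3) = q + 1 := ⟨b / (c + 3) - 1, by omega⟩
  set k := b % (c + 3) with hk
  rw [hq] at hdm
  have hb : b = (q + 1) * (c + 3) + k := by rw [← hdm]; ring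
  have hcard : Fintype.card (H394.T k (c + 3) (q + 1)) = b := by
    rw [Fintype.card_sum, Fintype.card_prod, Fintype.card_fin, Fintype.card_fin,
      Fintype.card_fin, hb]
    ring
  let ε : H394.T k (c + 3) (q + 1) ≃ Fin b := Fintype.equivFinOfCardEq hcard
  have hqq : (q + 1) * (c + 3) = q * (c + 3) + (c + 3) := by ring
  refine (H394.plethMult_le_of_formG ε lam ?_).2
  intro l hx hF
  apply vanish_uniform (by omega) hb lam hlast _ _ l hx hF
  · have h3 := h1 (Fin.last (c + 2))
    omega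
  · have h3 := h2 (Fin.last (c + 2)) (by simp)
    omega

/-- **Uniform theorem, any `dim V ≥ a`**: Foulkes' inequality for all `b ≥ a ≥ 3` and all shapes
with `b - a + 2 ≤ lam_a ≤ b - b % a`. -/
theorem uniform (a b n : ℕ) (ha : 3 ≤ a) (hab : a ≤ b) (han : a ≤ n) (lam : Fin n → ℕ)
    (h1 : ∀ i : Fin n, (i : ℕ) < a → b + 2 ≤ lam i + a)
    (h2 : ∀ i : Fin n, (i : ℕ) + 1 = a → lam i ≤ b - b % a) :
    plethMult a b n lam ≤ plethMult b a n lam := by
  by_cases h0 : plethMult a b n lam = 0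
  · rw [h0]
    exact Nat.zero_le _
  · obtain ⟨hanti, hsum, hz⟩ := H530.zero_stmt a b n lam h0
    obtain ⟨k, rfl⟩ := Nat.exists_eq_add_of_le han
    set mu : Fin a → ℕ := fun i => lam (Fin.castAdd k i) with hmu
    have hlam : lam = fun i : Fin (a + k) => if h : (i : ℕ) < a then mu ⟨i, h⟩ else 0 := by
      funext i
      by_cases hi : (i : ℕ) < a
      · rw [dif_pos hi, hmu]
        congr 1
      · rw [dif_neg hi]
        exact hz i (by omega)
    rw [hlam, H530.pad_stmt a b a k mu, H530.pad_stmt b a a k mu]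
    apply uniform_self ha hab mu
    · intro i j hij
      have hij' : (i : ℕ) ≤ j := hij
      exact hanti (show Fin.castAdd k i ≤ Fin.castAdd k j from hij')
    · intro i
      exact h1 (Fin.castAdd k i) (by simp)
    · intro i hi
      exact h2 (Fin.castAdd k i) (by simpa using hi)

end Vale.Agent.P181.H983
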