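import Vale.Agent.P181.H983.Pos
import Vale.Agent.P181.H983.Col1
import Vale.Agent.P181.H270.Perm
import Vale.Agent.P181.H394.HybG2

set_option autoImplicit false

/-!
# P181: the uniform theorem for tall shapes, `b = (q + 1) a + k`, modulo S3, S4, S5, S6, S8
-/

open scoped TensorProduct

namespace Vale.Agent.P181.H983

open Vale.Agent.P181 Vale.Agent.P181.H280 Vale.Agent.P181.H270 Vale.Agent.P181.H73 Finset
  MvPolynomial

/-- The variables. -/
noncomputable abbrev xs (a : ℕ) : Fin a → MvPolynomial (Fin a) ℂ := fun i => X i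

lemma xs_mem (a : ℕ) (i : Fin a) : xs a i ∈ linS a := X_mem_linS i

section General

variable {A : Type} [CommRing A] [Algebra ℂ A]

lemma mulL_symm {a : ℕ} (l : A) {F : MultilinearMap ℂ (fun _ : Fin a => A) ℂ} (hF : IsSymm F) :
    IsSymm (mulL l F) := by
  intro σ P
  rw [mulL_apply, mulL_apply]
  exact hF σ (fun i => l * P i)

lemma altC_iter_mulL {a : ℕ} (x : Fin a → A) (M : ℕ) (l : A)
    (F : MultilinearMap ℂ (fun _ : Fin a => A) ℂ) (P : Fin a → A) :
    ((altC x)^[M] (mulL l F)) P = ((altC x)^[M] F) (fun i => l * P i) := by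
  rw [altC_iter_apply, altC_iter_apply]
  apply Finset.sum_congr rfl
  intro τ _
  congr 1
  rw [mulL_apply]
  congr 1
  funext p
  ring

/-- The exchange step, any parity. -/
theorem cstmt' (L : Submodule ℂ A) {c κ : ℕ}
    (φ : MultilinearMap ℂ (fun _ : Fin (c + 3) => A) ℂ) (hs : IsSgn κ φ)
    (hQ : ∀ w ∈ L, ∀ v : Fin (c + 3) → A, v 0 ∈ L ^ (c + 1) → (∀ p, p ≠ 0 → v p ∈ L ^ c) →
      φ (fun p => if p = 0 then v 0 else w * v p) = 0) : Col L c φ := by
  have h1 : H907.YF L c φ := by
    apply H907.yf_of_q L φ hs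
    intro w hw g hg v hv
    rw [← hQ w hw (Fin.cons g v) hg (by
      intro p
      refine Fin.cases ?_ (fun p => ?_) p
      · intro h
        exact absurd rfl h
      · intro _
        exact hv p)]
    congr 1
    funext p
    refine Fin.cases ?_ (fun p => ?_) p
    · rfl
    · rw [Fin.cons_succ, Fin.cons_succ, if_neg (Fin.succ_ne_zero p)]
  intro p q hpq u hu v hv P hP
  apply h1 _ p q hpq u hu v hv
  · rw [Function.update_of_ne hpq, Function.update_self]
  · rw [Function.update_self]
  · intro k
    by_cases hkq : k = q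
    · subst hkq
      rw [Function.update_self, pow_succ']
      exact Submodule.mul_mem_mul hu hv
    · rw [Function.update_of_ne hkq]
      by_cases hkp : k = p
      · subst hkp
        rw [Function.update_self]
        exact Submodule.pow_mem_pow L hu _
      · rw [Function.update_of_ne hkp]
        exact hP k

end General

/-- The claim at level `k`. -/
def Claim (c q k : ℕ) : Prop :=
  ∀ F : MultilinearMap ℂ (fun _ : Fin (c + 3) => MvPolynomial (Fin (c + 3)) ℂ) ℂ, IsSymm F →
    Rel k (q + 1) (linS (c + 3)) F →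
    (∀ j, k = j + 1 → ∀ P : Fin (c + 3) → MvPolynomial (Fin (c + 3)) ℂ,
      (∀ i, P i ∈ linS (c + 3) ^ j) →
      ((altC (xs (c + 3)))^[(q + 1) * (c + 3) + 1] F) P = 0) →
    ∀ P : Fin (c + 3) → MvPolynomial (Fin (c + 3)) ℂ, (∀ i, P i ∈ linS (c + 3) ^ (c + 1)) →
      ((altC (xs (c + 3)))^[q * (c + 3) + k + 2] F) P = 0

/-- Descent of the cap lemma. -/
theorem capIter (h8 : S8) (a : ℕ) : ∀ (t j : ℕ)
    (φ : MultilinearMap ℂ (fun _ : Fin a => MvPolynomial (Fin a) ℂ) ℂ), Col (linS a) j φ →
    t ≤ j + 1 → (∀ P : Fin a → MvPolynomial (Fin a) ℂ, (∀ i, P i ∈ linS a ^ (j + 1 - t)) →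
      ((altC (xs a))^[t] φ) P = 0) →
    ∀ P : Fin a → MvPolynomial (Fin a) ℂ, (∀ i, P i ∈ linS a ^ (j + 1)) → φ P = 0 := by
  intro t
  induction t with
  | zero =>
    intro j φ _ _ h P hP
    exact h P hP
  | succ t ih =>
    intro j φ hcol ht h
    apply h8 a j φ hcol
    rcases Nat.eq_zero_or_pos j with hj | hj
    · subst hj
      have ht0 : t = 0 := by omega
      subst ht0
      intro P hP
      exact h P hP
    · obtain ⟨j', rfl⟩ : ∃ j', j = j' + 1 := ⟨j - 1, by omega⟩
      apply ih j' (altC (xs a) φ) (Col.altC hcol (xs_mem a)) (by omega)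
      intro P hP
      have h1 : j' + 1 + 1 - (t + 1) = j' + 1 - t := by omega
      rw [h1] at h
      have h2 := h P hP
      rw [Function.iterate_succ_apply] at h2
      exact h2

/-- The fibres of the slot map. -/
lemma slot_fibre {a k q : ℕ} (e : Equiv.Perm (Fin k ⊕ (Fin a × Fin q)))
    (σ : Fin k → Equiv.Perm (Fin a)) (p : Fin a) :
    (univ.filter (fun pos : (Fin k ⊕ (Fin a × Fin q)) × Fin a => slot e σ pos = p)).card =
      q * a + k := by
  classical
  rw [Finset.card_filter, Fintype.sum_prod_type, ← Equiv.sum_comp e, Fintype.sum_sum_type]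
  have h1 : ∀ i : Fin k, ∑ s : Fin a, (if slot e σ (e (.inl i), s) = p then 1 else 0) = 1 := by
    intro i
    rw [Finset.sum_eq_single (σ i p)]
    · rw [slot_e_inl, Equiv.symm_apply_apply, if_pos rfl]
    · intro s _ hs
      rw [slot_e_inl, if_neg]
      intro h
      apply hs
      rw [← h, Equiv.apply_symm_apply]
    · intro h
      exact absurd (Finset.mem_univ _) h
  have h2 : ∀ pj : Fin a × Fin q, ∑ s : Fin a,
      (if slot e σ (e (.inr pj), s) = p then 1 else 0) = if pj.1 = p then a else 0 := by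
    intro pj
    simp only [slot_e_inr]
    split_ifs <;> simp
  rw [Finset.sum_congr rfl (fun i _ => h1 i), Finset.sum_congr rfl (fun pj _ => h2 pj),
    Fintype.sum_prod_type]
  have h3 : ∑ x : Fin a, ∑ _y : Fin q, (if x = p then a else 0) = q * a := by
    simp only [Finset.sum_const, Finset.card_univ, Fintype.card_fin, smul_eq_mul]
    rw [← Finset.mul_sum, Finset.sum_ite_eq' univ p, if_pos (Finset.mem_univ _)]
  rw [h3, Finset.sum_const, Finset.card_univ, Fintype.card_fin, smul_eq_mul]
  ring

lemma fst_fibre {a d : ℕ} (p : Fin a) :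
    (univ.filter (fun pos : Fin a × Fin d => pos.1 = p)).card = d := by
  classical
  have h : univ.filter (fun pos : Fin a × Fin d => pos.1 = p) = {p} ×ˢ univ := by
    ext pos
    rw [Finset.mem_filter, Finset.mem_product, Finset.mem_singleton]
    simp
  rw [h, Finset.card_product, Finset.card_singleton, Finset.card_univ, Fintype.card_fin, one_mul]

lemma fst_fibre' {a d d' : ℕ} (h : d = d') (p : Fin a) :
    (univ.filter (fun pos : Fin a × Fin d => pos.1 = p)).card = d' := by
  rw [fst_fibre, h]

/-- **The induction step.** -/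
theorem step (h3 : S3) (h4a : S4a) (h4b : S4b) (h5 : S5) (h6 : S6) (h8 : S8) {c q k : ℕ}
    (hk : k ≤ c + 1) (ih : Claim c q k) : Claim c q (k + 1) := by
  intro F hs hR hN
  set M := q * (c + 3) + k + 2 with hM
  have hd : (c + 1) + M = (q + 1) * (c + 3) + k := by rw [hM]; ring
  -- the contraction with `M` columns is killed by arguments with a common factor
  have key : ∀ l ∈ linS (c + 3), ∀ y : Fin (c + 3) → MvPolynomial (Fin (c + 3)) ℂ,
      (∀ i, y i ∈ linS (c + 3) ^ (c + 1)) →
      ((altC (xs (c + 3)))^[M] F) (fun i => l * y i) = 0 := by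
    intro l hl
    have hsl : IsSymm (mulL l F) := mulL_symm l hs
    obtain ⟨F', hs', hF'⟩ := h3 M (c + 3) ((c + 1) + M) (mulL l F) hsl
    have hrel : Rel k (q + 1) (linS (c + 3)) F' := by
      apply h6
      intro w
      have h1 : ∀ (e : Equiv.Perm (Fin k ⊕ (Fin (c + 3) × Fin (q + 1))))
          (σ : Fin k → Equiv.Perm (Fin (c + 3))), wv (slot e σ) F' w =
          colZ M (c + 3) (wv (slot e σ) (mulL l F)) w := by
        intro e σ
        apply hF'
        intro p
        rw [slot_fibre, hd]
      simp only [h1]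
      have h2 : ∑ e : Equiv.Perm (Fin k ⊕ (Fin (c + 3) × Fin (q + 1))),
          ∑ σ : Fin k → Equiv.Perm (Fin (c + 3)),
            colZ M (c + 3) (wv (slot e σ) (mulL l F)) w =
          ∑ ι : Fin M × Fin (c + 3) ↪ (Fin k ⊕ (Fin (c + 3) × Fin (q + 1))) × Fin (c + 3),
            colSum ι (fun w => ∑ e : Equiv.Perm (Fin k ⊕ (Fin (c + 3) × Fin (q + 1))),
              ∑ σ : Fin k → Equiv.Perm (Fin (c + 3)), wv (slot e σ) (mulL l F) w) w := by
        simp only [colSum_sum univ, colZ]
        rw [Finset.sum_congr rfl (fun e _ => Finset.sum_comm), Finset.sum_comm]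
      rw [h2]
      apply Finset.sum_eq_zero
      intro ι _
      exact h5 (c + 3) k q M F hR l hl (by rw [hM]) ι w
    have hN' : ∀ j, k = j + 1 → ∀ P : Fin (c + 3) → MvPolynomial (Fin (c + 3)) ℂ,
        (∀ i, P i ∈ linS (c + 3) ^ j) →
        ((altC (xs (c + 3)))^[(q + 1) * (c + 3) + 1] F') P = 0 := by
      intro j hj
      apply h4b (c + 3) ((q + 1) * (c + 3) + 1) j F' hs'
      intro ι w
      have h1 : (wv (fun p : Fin (c + 3) × Fin (j + ((q + 1) * (c + 3) + 1)) => p.1) F') =
          colZ M (c + 3) (wv (fun p => p.1) (mulL l F)) := by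
        funext w
        apply hF'
        intro p
        apply fst_fibre'
        rw [hd, hj]
        ring
      rw [h1]
      apply s2
      intro ι w
      apply h4a (c + 3) ((q + 1) * (c + 3) + 1) j (mulL l F) hsl
      · intro P hP
        have h2 := altC_iter_mulL (xs (c + 3)) ((q + 1) * (c + 3) + 1) l F P
        refine h2.trans ?_
        apply hN k rfl
        intro i
        rw [hj, pow_succ']
        exact Submodule.mul_mem_mul hl (hP i)
      · intro p
        apply fst_fibre' rfl
    have hz := ih F' hs' hrel hN'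
    have hfin : ∀ P : Fin (c + 3) → MvPolynomial (Fin (c + 3)) ℂ,
        (∀ i, P i ∈ linS (c + 3) ^ (c + 1)) →
        ((altC (fun i => (X i : MvPolynomial (Fin (c + 3)) ℂ)))^[M] (mulL l F)) P = 0 := by
      apply h4b (c + 3) M (c + 1) (mulL l F) hsl
      apply s1
      intro ι w
      have h1 : (wv (fun p : Fin (c + 3) × Fin (c + 1 + M) => p.1) F') =
          colZ M (c + 3) (wv (fun p => p.1) (mulL l F)) := by
        funext w
        apply hF'
        intro p
        apply fst_fibre' rfl
      rw [← h1]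
      apply h4a (c + 3) M (c + 1) F' hs' hz
      intro p
      apply fst_fibre' rfl
    intro y hy
    rw [← altC_iter_mulL]
    exact hfin y hy
  -- one more column
  have hcol : Col (linS (c + 3)) c ((altC (xs (c + 3)))^[M + 1] F) := by
    apply cstmt' (linS (c + 3)) (κ := M + 1)
    · exact isSgn_iter hs _ _
    · intro w hw v hv0 hv
      rw [Function.iterate_succ_apply']
      exact s7 _ (linS (c + 3)) c _ (xs (c + 3)) (xs_mem _) key w hw v hv0 hv
  have h1 : q * (c + 3) + (k + 1) + 2 = M + 1 := by rw [hM]; ring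
  rw [h1]
  apply capIter h8 (c + 3) (c + 1 - k) c _ hcol (by omega)
  intro P hP
  rw [← Function.iterate_add_apply]
  have h2 : c + 1 - k + (M + 1) = (q + 1) * (c + 3) + 1 := by
    have h3 : (q + 1) * (c + 3) = q * (c + 3) + (c + 3) := by ring
    omega
  rw [h2]
  apply hN k rfl
  have h3 : c + 1 - (c + 1 - k) = k := by omega
  rw [h3] at hP
  exact hP

/-! ### The base -/

/-- The power relation. -/
lemma rel_zero {a q : ℕ} {A : Type} [CommRing A] [Algebra ℂ A] (L : Submodule ℂ A)
    (F : MultilinearMap ℂ (fun _ : Fin a => A) ℂ) (hR : Rel 0 q L F) (G : A) (hG : G ∈ L ^ a) :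
    F (fun _ => G ^ q) = 0 := by
  classical
  let Φ : MultilinearMap ℂ (fun _ : Fin 0 ⊕ (Fin a × Fin q) => A) ℂ :=
    ∑ e : Equiv.Perm (Fin 0 ⊕ (Fin a × Fin q)),
      slotMul (fun r => Sum.elim (fun i => i.elim0) (fun pj => pj.1) (e.symm r)) F
  have hΦ : ∀ N, Φ N = ∑ e : Equiv.Perm (Fin 0 ⊕ (Fin a × Fin q)),
      F (fun p => ∏ j, N (e (.inr (p, j)))) := by
    intro N
    simp only [Φ, _root_.sum_apply, slotMul_apply]
    apply Finset.sum_congr rfl
    intro e _
    congr 1
    funext p
    rw [← Equiv.prod_comp e, Fintype.prod_sum_type, Finset.univ_eq_empty, Finset.prod_empty,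
      one_mul, Fintype.prod_prod_type, Finset.prod_eq_single p]
    · apply Finset.prod_congr rfl
      intro j _
      rw [Equiv.symm_apply_apply, Sum.elim_inr, if_pos rfl]
    · intro p' _ hp'
      apply Finset.prod_eq_one
      intro j _
      rw [Equiv.symm_apply_apply, Sum.elim_inr, if_neg hp']
    · intro h
      exact absurd (Finset.mem_univ _) h
  have h1 : Φ (fun _ => G) = 0 := by
    apply multilinear_zero_of_span Φ
      {g : A | ∃ y : Fin a → A, (∀ s, y s ∈ L) ∧ g = ∏ s, y s}
    · intro w hw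
      choose y hy hwy using hw
      rw [hΦ, ← hR y hy]
      apply Finset.sum_congr rfl
      intro e _
      rw [Fintype.sum_eq_single (fun i => i.elim0) (fun σ hσ => absurd (Subsingleton.elim _ _) hσ)]
      congr 1
      funext p
      have h4 : (∏ i : Fin 0, y (e (.inl i)) (((fun i => i.elim0 : Fin 0 → Equiv.Perm (Fin a)) i) p))
          = 1 := Fintype.prod_empty _
      refine Eq.trans ?_ (congrArg (· * _) h4).symm
      rw [one_mul]
      apply Finset.prod_congr rfl
      intro j _
      rw [hwy]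
    · intro i
      have h2 : L ^ a ≤ Submodule.span ℂ {g : A | ∃ y : Fin a → A, (∀ s, y s ∈ L) ∧
          g = ∏ s, y s} := by
        have h3 := span_pow_eq (z := (Subtype.val : L → A)) a
        rw [Subtype.range_coe] at h3
        rw [Submodule.span_eq] at h3
        refine h3.trans (Submodule.span_mono ?_)
        rintro _ ⟨c, rfl⟩
        exact ⟨fun s => (c s : A), fun s => (c s).2, rfl⟩
      exact h2 hG
  rw [hΦ] at h1
  simp only [Finset.prod_const, Finset.card_univ, Fintype.card_fin, Finset.sum_const,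
    nsmul_eq_mul] at h1
  refine (mul_eq_zero.1 h1).resolve_left ?_
  exact_mod_cast Fintype.card_ne_zero

theorem base (c q : ℕ) : Claim c q 0 := by
  intro F hs hR _ P hP
  have hG := rel_zero (linS (c + 3)) F hR
  rcases Nat.eq_zero_or_pos q with hq | hq
  · subst hq
    have h1 : ∀ Q : Fin (c + 3) → MvPolynomial (Fin (c + 3)) ℂ,
        (∀ i, Q i ∈ linS (c + 3) ^ (c + 3)) → F Q = 0 := by
      apply symm_polar _ hs
      intro G hG'
      have h2 := hG G hG'
      rw [zero_add, pow_one] at h2
      exact h2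
    apply altC_iter_zero (linS (c + 3)) (xs (c + 3)) (xs_mem _) _ (c + 1) F _ P hP
    intro Q hQ
    apply h1
    intro i
    have h2 := hQ i
    have h3 : c + 1 + (0 * (c + 3) + 0 + 2) = c + 3 := by omega
    rw [h3] at h2
    exact h2
  · obtain ⟨r, rfl⟩ : ∃ r, q = r + 1 := ⟨q - 1, by omega⟩
    have h1 := tall (linS (c + 3)) (by omega) (xs (c + 3)) (xs_mem _) r F hs hG
    have h2 : (r + 1) * (c + 3) + 0 + 2 = ((r + 1) * (c + 3) + 1 - 2 * r) + (2 * r + 1) := by
      have h3 : (r + 1) * (c + 3) = r * c + 3 * r + c + 3 := by ring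
      have h4 : 0 ≤ r * c := Nat.zero_le _
      omega
    rw [h2, Function.iterate_add_apply]
    apply altC_iter_zero (linS (c + 3)) (xs (c + 3)) (xs_mem _) _ (c + 1) _ _ P hP
    intro Q hQ
    apply h1
    intro i
    have h5 := hQ i
    have h6 : (r + 2) * (c + 3) - (2 * r + 1) = c + 1 + ((r + 1) * (c + 3) + 1 - 2 * r) := by
      have h3 : (r + 1) * (c + 3) = r * c + 3 * r + c + 3 := by ring
      have h3' : (r + 2) * (c + 3) = r * c + 3 * r + 2 * c + 6 := by ring
      omega
    rw [h6]
    exact h5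

end Vale.Agent.P181.H983
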