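import Vale.Agent.P181.H983.TDefs

set_option autoImplicit false

/-!
# P181: positivity of the column operators (S1) and stability (S2)
-/

namespace Vale.Agent.P181.H983

open Vale.Agent.P181 Vale.Agent.P181.H280 Vale.Agent.P181.H270 Vale.Agent.P181.H73 Finset
  MvPolynomial

section ColPerm

variable {κ κ' : Type} [DecidableEq κ] [DecidableEq κ'] {M a : ℕ}

lemma colPerm_apply (ι : Fin M × Fin a ↪ κ) (τ : Fin M → Equiv.Perm (Fin a)) (c : Fin M)
    (i : Fin a) : colPerm ι τ (ι (c, i)) = ι (c, τ c i) := by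
  rw [colPerm, Equiv.Perm.viaEmbedding_apply]
  rfl

lemma colPerm_notMem (ι : Fin M × Fin a ↪ κ) (τ : Fin M → Equiv.Perm (Fin a)) (p : κ)
    (hp : ∀ c i, ι (c, i) ≠ p) : colPerm ι τ p = p := by
  rw [colPerm, Equiv.Perm.viaEmbedding_apply_of_notMem]
  rintro ⟨⟨c, i⟩, h⟩
  exact hp c i h

lemma colPerm_cases (ι : Fin M × Fin a ↪ κ) (p : κ) :
    (∃ c i, ι (c, i) = p) ∨ (∀ c i, ι (c, i) ≠ p) := by
  by_cases h : ∃ c i, ι (c, i) = p
  · exact Or.inl h
  · right
    push Not at h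
    exact h

lemma colPerm_mul (ι : Fin M × Fin a ↪ κ) (τ τ' : Fin M → Equiv.Perm (Fin a)) (p : κ) :
    colPerm ι τ (colPerm ι τ' p) = colPerm ι (fun c => τ c * τ' c) p := by
  rcases colPerm_cases ι p with ⟨c, i, rfl⟩ | h
  · rw [colPerm_apply, colPerm_apply, colPerm_apply]
    rfl
  · rw [colPerm_notMem ι τ' p h, colPerm_notMem ι τ p h, colPerm_notMem ι _ p h]

lemma colPerm_one (ι : Fin M × Fin a ↪ κ) (p : κ) : colPerm ι (fun _ => 1) p = p := by
  rcases colPerm_cases ι p with ⟨c, i, rfl⟩ | h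
  · rw [colPerm_apply]
    rfl
  · rw [colPerm_notMem ι _ p h]

lemma colPerm_trans (g : κ ≃ κ') (ι : Fin M × Fin a ↪ κ) (τ : Fin M → Equiv.Perm (Fin a))
    (p : κ) : colPerm (ι.trans g.toEmbedding) τ (g p) = g (colPerm ι τ p) := by
  rcases colPerm_cases ι p with ⟨c, i, rfl⟩ | h
  · have h1 : g (ι (c, i)) = (ι.trans g.toEmbedding) (c, i) := rfl
    rw [h1, colPerm_apply, colPerm_apply]
    rfl
  · rw [colPerm_notMem ι _ p h, colPerm_notMem]
    intro c i h1
    exact h c i (g.injective h1)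

/-- Reindexing of the positions. -/
lemma colSum_reindex {α : Type} (g : κ ≃ κ') (ι : Fin M × Fin a ↪ κ') (Φ : (κ → α) → ℂ)
    (w : κ' → α) : colSum ι (fun w => Φ (fun p => w (g p))) w =
      colSum (ι.trans g.symm.toEmbedding) Φ (fun p => w (g p)) := by
  simp only [colSum]
  apply Finset.sum_congr rfl
  intro τ _
  congr 2
  funext p
  congr 1
  have h1 := colPerm_trans g (ι.trans g.symm.toEmbedding) τ p
  rw [← h1]
  have h2 : (ι.trans g.symm.toEmbedding).trans g.toEmbedding = ι := by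
    ext x
    show g (g.symm (ι x)) = ι x
    rw [Equiv.apply_symm_apply]
  rw [h2]

/-- Linearity. -/
lemma colSum_sum {α Γ : Type} (S : Finset Γ) (ι : Fin M × Fin a ↪ κ) (Φ : Γ → (κ → α) → ℂ)
    (w : κ → α) : colSum ι (fun w => ∑ γ ∈ S, Φ γ w) w = ∑ γ ∈ S, colSum ι (Φ γ) w := by
  simp only [colSum, Finset.mul_sum]
  rw [Finset.sum_comm]

lemma colSum_smul {α : Type} (t : ℂ) (ι : Fin M × Fin a ↪ κ) (Φ : (κ → α) → ℂ)
    (w : κ → α) : colSum ι (fun w => t * Φ w) w = t * colSum ι Φ w := by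
  simp only [colSum, Finset.mul_sum]
  apply Finset.sum_congr rfl
  intro τ _
  ring

/-- Stability. -/
theorem s2 : S2 := by
  intro κ _ _ M M' a Φ h ι w
  have h1 : (colZ M a Φ) = fun w => ∑ ι' : Fin M × Fin a ↪ κ, colSum ι' Φ w := rfl
  rw [h1, colSum_sum]
  apply Finset.sum_eq_zero
  intro ι' _
  have h2 : (colSum ι' Φ) = fun w => ∑ τ : Fin M → Equiv.Perm (Fin a),
      (fun w => (∏ c, ((Equiv.Perm.sign (τ c) : ℤ) : ℂ)) * Φ (fun p => w (colPerm ι' τ p))) w := rfl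
  rw [h2, colSum_sum]
  apply Finset.sum_eq_zero
  intro τ _
  rw [colSum_smul (∏ c, ((Equiv.Perm.sign (τ c) : ℤ) : ℂ)) ι
    (fun w => Φ (fun p => w (colPerm ι' τ p))) w]
  rw [colSum_reindex (colPerm ι' τ), h, mul_zero]

end ColPerm

section Positive

variable {κ : Type} [Fintype κ] [DecidableEq κ] {M a : ℕ}

open ComplexConjugate

/-- Change of the word by a permutation of the positions. -/
lemma sum_word_perm (g : Equiv.Perm κ) (f : (κ → Fin a) → ℂ) :
    ∑ w : κ → Fin a, f (fun p => w (g p)) = ∑ w, f w :=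
  Equiv.sum_comp (Equiv.arrowCongr g.symm (Equiv.refl (Fin a))) f

lemma conj_int_cast' (z : ℤ) : conj (z : ℂ) = (z : ℂ) := map_intCast _ z

lemma colSum_adj (ι : Fin M × Fin a ↪ κ) (Φ Ψ : (κ → Fin a) → ℂ) :
    ∑ w, colSum ι Φ w * conj (Ψ w) = ∑ w, Φ w * conj (colSum ι Ψ w) := by
  have hl : ∑ w, colSum ι Φ w * conj (Ψ w) = ∑ τ : Fin M → Equiv.Perm (Fin a),
      (∏ c, ((Equiv.Perm.sign (τ c) : ℤ) : ℂ)) *
        ∑ w : κ → Fin a, Φ (fun p => w (colPerm ι τ p)) * conj (Ψ w) := by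
    simp only [colSum, Finset.sum_mul, Finset.mul_sum]
    rw [Finset.sum_comm]
    apply Finset.sum_congr rfl
    intro τ _
    apply Finset.sum_congr rfl
    intro w _
    ring
  have hr : ∑ w, Φ w * conj (colSum ι Ψ w) = ∑ τ : Fin M → Equiv.Perm (Fin a),
      (∏ c, ((Equiv.Perm.sign (τ c) : ℤ) : ℂ)) *
        ∑ w : κ → Fin a, Φ w * conj (Ψ (fun p => w (colPerm ι τ p))) := by
    simp only [colSum, map_sum, map_mul, map_prod, conj_int_cast', Finset.mul_sum]
    rw [Finset.sum_comm]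
    apply Finset.sum_congr rfl
    intro τ _
    apply Finset.sum_congr rfl
    intro w _
    ring
  rw [hl, hr, ← Equiv.sum_comp (Equiv.inv (Fin M → Equiv.Perm (Fin a)))]
  apply Finset.sum_congr rfl
  intro τ _
  have hs : ∏ c, ((Equiv.Perm.sign ((Equiv.inv (Fin M → Equiv.Perm (Fin a))) τ c) : ℤ) : ℂ) =
      ∏ c, ((Equiv.Perm.sign (τ c) : ℤ) : ℂ) := by
    apply Finset.prod_congr rfl
    intro c _
    rw [Equiv.inv_apply, Pi.inv_apply, Equiv.Perm.sign_inv]
  rw [hs]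
  congr 1
  rw [← sum_word_perm (colPerm ι τ)]
  apply Finset.sum_congr rfl
  intro w _
  congr 2
  funext p
  show w (colPerm ι τ (colPerm ι ((Equiv.inv (Fin M → Equiv.Perm (Fin a))) τ) p)) = w p
  rw [colPerm_mul]
  have h1 : (fun c => τ c * (Equiv.inv (Fin M → Equiv.Perm (Fin a))) τ c) =
      fun _ => (1 : Equiv.Perm (Fin a)) := by
    funext c
    rw [Equiv.inv_apply, Pi.inv_apply, mul_inv_cancel]
  rw [h1, colPerm_one]

lemma colSum_colSum (ι : Fin M × Fin a ↪ κ) (Φ : (κ → Fin a) → ℂ) (w : κ → Fin a) :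
    colSum ι (colSum ι Φ) w =
      (Fintype.card (Fin M → Equiv.Perm (Fin a)) : ℂ) * colSum ι Φ w := by
  have h1 : ∀ τ : Fin M → Equiv.Perm (Fin a), (∏ c, ((Equiv.Perm.sign (τ c) : ℤ) : ℂ)) *
      colSum ι Φ (fun p => w (colPerm ι τ p)) = colSum ι Φ w := by
    intro τ
    simp only [colSum]
    rw [Finset.mul_sum, ← Equiv.sum_comp (Equiv.mulLeft τ) (fun τ' =>
      (∏ c, ((Equiv.Perm.sign (τ' c) : ℤ) : ℂ)) * Φ (fun p => w (colPerm ι τ' p)))]
    apply Finset.sum_congr rfl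
    intro τ' _
    have h2 : ∏ c, ((Equiv.Perm.sign ((Equiv.mulLeft τ) τ' c) : ℤ) : ℂ) =
        (∏ c, ((Equiv.Perm.sign (τ c) : ℤ) : ℂ)) * ∏ c, ((Equiv.Perm.sign (τ' c) : ℤ) : ℂ) := by
      rw [← Finset.prod_mul_distrib]
      apply Finset.prod_congr rfl
      intro c _
      show ((Equiv.Perm.sign (τ c * τ' c) : ℤ) : ℂ) = _
      rw [map_mul, Units.val_mul, Int.cast_mul]
    rw [h2, mul_assoc]
    congr 3
    funext p
    rw [colPerm_mul]
    rfl
  have h3 : colSum ι (colSum ι Φ) w = ∑ τ : Fin M → Equiv.Perm (Fin a),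
      (∏ c, ((Equiv.Perm.sign (τ c) : ℤ) : ℂ)) *
      colSum ι Φ (fun p => w (colPerm ι τ p)) := rfl
  rw [h3, Finset.sum_congr rfl (fun τ _ => h1 τ), Finset.sum_const, Finset.card_univ, nsmul_eq_mul]

lemma colZ_adj (Φ Ψ : (κ → Fin a) → ℂ) :
    ∑ w, colZ M a Φ w * conj (Ψ w) = ∑ w, Φ w * conj (colZ M a Ψ w) := by
  simp only [colZ, map_sum, Finset.sum_mul, Finset.mul_sum]
  rw [Finset.sum_comm, Finset.sum_comm (s := univ) (t := univ)
    (f := fun (w : κ → Fin a) (ι : Fin M × Fin a ↪ κ) => Φ w * conj (colSum ι Ψ w))]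
  apply Finset.sum_congr rfl
  intro ι _
  exact colSum_adj ι Φ Ψ

lemma zero_of_norm {f : (κ → Fin a) → ℂ} (h : ∑ w, f w * conj (f w) = 0) (w : κ → Fin a) :
    f w = 0 := by
  have h1 : ∑ w, Complex.normSq (f w) = 0 := by
    have h2 : ((∑ w, Complex.normSq (f w) : ℝ) : ℂ) = 0 := by
      rw [← h]
      push_cast
      apply Finset.sum_congr rfl
      intro w _
      rw [Complex.mul_conj]
    exact_mod_cast h2
  rw [Finset.sum_eq_zero_iff_of_nonneg (fun w _ => Complex.normSq_nonneg _)] at h1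
  exact Complex.normSq_eq_zero.1 (h1 w (Finset.mem_univ _))

/-- Positivity. -/
theorem s1 : S1 := by
  intro κ _ _ M a Φ h
  have h1 : ∀ w, colZ M a Φ w = 0 := by
    apply zero_of_norm
    rw [colZ_adj]
    apply Finset.sum_eq_zero
    intro w _
    have h2 : colZ M a (colZ M a Φ) w = 0 := Finset.sum_eq_zero (fun ι _ => h ι w)
    rw [h2, map_zero, mul_zero]
  have h2 : ∀ ι : Fin M × Fin a ↪ κ, ∑ w, colSum ι Φ w * conj (colSum ι Φ w) =
      (Fintype.card (Fin M → Equiv.Perm (Fin a)) : ℂ) * ∑ w, colSum ι Φ w * conj (Φ w) := by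
    intro ι
    rw [← colSum_adj ι (colSum ι Φ) Φ, Finset.mul_sum]
    apply Finset.sum_congr rfl
    intro w _
    rw [colSum_colSum]
    ring
  have h3 : ∑ ι : Fin M × Fin a ↪ κ, ∑ w, colSum ι Φ w * conj (colSum ι Φ w) = 0 := by
    rw [Finset.sum_congr rfl (fun ι _ => h2 ι), ← Finset.mul_sum, Finset.sum_comm]
    have h4 : ∀ w, ∑ ι : Fin M × Fin a ↪ κ, colSum ι Φ w * conj (Φ w) = 0 := by
      intro w
      rw [← Finset.sum_mul]
      have h5 : ∑ ι : Fin M × Fin a ↪ κ, colSum ι Φ w = 0 := h1 w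
      rw [h5, zero_mul]
    rw [Finset.sum_eq_zero (fun w _ => h4 w), mul_zero]
  have h4 : ∀ ι : Fin M × Fin a ↪ κ, ∑ w, Complex.normSq (colSum ι Φ w) = 0 := by
    have h5 : ∑ ι : Fin M × Fin a ↪ κ, ∑ w, Complex.normSq (colSum ι Φ w) = 0 := by
      have h6 : ((∑ ι : Fin M × Fin a ↪ κ, ∑ w, Complex.normSq (colSum ι Φ w) : ℝ) : ℂ) = 0 := by
        rw [← h3]
        push_cast
        apply Finset.sum_congr rfl
        intro ι _
        apply Finset.sum_congr rfl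
        intro w _
        rw [Complex.mul_conj]
      exact_mod_cast h6
    rw [Finset.sum_eq_zero_iff_of_nonneg
      (fun ι _ => Finset.sum_nonneg (fun w _ => Complex.normSq_nonneg _))] at h5
    intro ι
    exact h5 ι (Finset.mem_univ _)
  intro ι w
  have h5 := h4 ι
  rw [Finset.sum_eq_zero_iff_of_nonneg (fun w _ => Complex.normSq_nonneg _)] at h5
  exact Complex.normSq_eq_zero.1 (h5 w (Finset.mem_univ _))

end Positive

end Vale.Agent.P181.H983
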