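import Vale.Agent.P181.H270.Master
import Vale.Agent.P181.H73.End
import Vale.Agent.P181.H907.Y

set_option autoImplicit false

/-!
# P181: definitions for the tall shapes of all `b ≥ a`

Word functions, signed column sums, values of forms at words.
-/

namespace Vale.Agent.P181.H983

open Vale.Agent.P181 Vale.Agent.P181.H280 Vale.Agent.P181.H270 Vale.Agent.P181.H73 Finset
  MvPolynomial

section Words

variable {κ : Type} {M a : ℕ}

/-- The permutation of the positions which permutes the letters of the column `c` by `τ c`. -/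
noncomputable def colPerm [DecidableEq κ] (ι : Fin M × Fin a ↪ κ)
    (τ : Fin M → Equiv.Perm (Fin a)) : Equiv.Perm κ :=
  Equiv.Perm.viaEmbedding (Equiv.prodCongrRight τ) ι

/-- Signed sum over the permutations of the letters of `M` disjoint columns. -/
noncomputable def colSum [DecidableEq κ] {α : Type} (ι : Fin M × Fin a ↪ κ) (Φ : (κ → α) → ℂ)
    (w : κ → α) : ℂ :=
  ∑ τ : Fin M → Equiv.Perm (Fin a), (∏ c, ((Equiv.Perm.sign (τ c) : ℤ) : ℂ)) *
    Φ (fun p => w (colPerm ι τ p))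

/-- The sum over all systems of `M` disjoint columns. -/
noncomputable def colZ [Fintype κ] [DecidableEq κ] {α : Type} (M a : ℕ) (Φ : (κ → α) → ℂ)
    (w : κ → α) : ℂ :=
  ∑ ι : Fin M × Fin a ↪ κ, colSum ι Φ w

/-- The value of a form at a word. -/
noncomputable def wv [Fintype κ] (s : κ → Fin a)
    (F : MultilinearMap ℂ (fun _ : Fin a => MvPolynomial (Fin a) ℂ) ℂ) (w : κ → Fin a) : ℂ :=
  F (cont s (fun p => X (w p)))

end Words

/-- The form with all entries multiplied by `l`. -/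
noncomputable def mulL {a : ℕ} {A : Type*} [CommRing A] [Algebra ℂ A] (l : A)
    (F : MultilinearMap ℂ (fun _ : Fin a => A) ℂ) : MultilinearMap ℂ (fun _ : Fin a => A) ℂ :=
  F.compLinearMap (fun _ => LinearMap.mulLeft ℂ l)

lemma mulL_apply {a : ℕ} {A : Type*} [CommRing A] [Algebra ℂ A] (l : A)
    (F : MultilinearMap ℂ (fun _ : Fin a => A) ℂ) (P : Fin a → A) :
    mulL l F P = F (fun i => l * P i) := rfl

/-- (S1) positivity. -/
def S1 : Prop := ∀ (κ : Type) [Fintype κ] [DecidableEq κ] (M a : ℕ) (Φ : (κ → Fin a) → ℂ),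
  (∀ (ι : Fin M × Fin a ↪ κ) (w : κ → Fin a), colSum ι (colZ M a Φ) w = 0) →
  ∀ (ι : Fin M × Fin a ↪ κ) (w : κ → Fin a), colSum ι Φ w = 0

/-- (S2) stability. -/
def S2 : Prop := ∀ (κ : Type) [Fintype κ] [DecidableEq κ] (M M' a : ℕ) (Φ : (κ → Fin a) → ℂ),
  (∀ (ι : Fin M' × Fin a ↪ κ) (w : κ → Fin a), colSum ι Φ w = 0) →
  ∀ (ι : Fin M' × Fin a ↪ κ) (w : κ → Fin a), colSum ι (colZ M a Φ) w = 0

/-- (S3) the operator `colZ` on forms. -/
def S3 : Prop := ∀ (M a d : ℕ)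
  (F : MultilinearMap ℂ (fun _ : Fin a => MvPolynomial (Fin a) ℂ) ℂ), IsSymm F →
  ∃ F' : MultilinearMap ℂ (fun _ : Fin a => MvPolynomial (Fin a) ℂ) ℂ, IsSymm F' ∧
    ∀ (κ : Type) [Fintype κ] [DecidableEq κ] (s : κ → Fin a),
      (∀ p, (univ.filter (fun k => s k = p)).card = d) → ∀ w : κ → Fin a,
        wv s F' w = colZ M a (wv s F) w

/-- (S4a) contractions kill the column sums. -/
def S4a : Prop := ∀ (a M j : ℕ)
  (F : MultilinearMap ℂ (fun _ : Fin a => MvPolynomial (Fin a) ℂ) ℂ), IsSymm F →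
  (∀ P : Fin a → MvPolynomial (Fin a) ℂ, (∀ i, P i ∈ linS a ^ j) →
    ((altC (fun i => (X i : MvPolynomial (Fin a) ℂ)))^[M] F) P = 0) →
  ∀ (κ : Type) [Fintype κ] [DecidableEq κ] (s : κ → Fin a),
    (∀ p, (univ.filter (fun k => s k = p)).card = j + M) →
    ∀ (ι : Fin M × Fin a ↪ κ) (w : κ → Fin a), colSum ι (wv s F) w = 0

/-- (S4b) column sums kill the contractions. -/
def S4b : Prop := ∀ (a M j : ℕ)
  (F : MultilinearMap ℂ (fun _ : Fin a => MvPolynomial (Fin a) ℂ) ℂ), IsSymm F →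
  (∀ (ι : Fin M × Fin a ↪ Fin a × Fin (j + M)) (w : Fin a × Fin (j + M) → Fin a),
    colSum ι (wv (fun p => p.1) F) w = 0) →
  ∀ P : Fin a → MvPolynomial (Fin a) ℂ, (∀ i, P i ∈ linS a ^ j) →
    ((altC (fun i => (X i : MvPolynomial (Fin a) ℂ)))^[M] F) P = 0

/-- (S5) the particle `l^a` must be dissolved. -/
def S5 : Prop := ∀ (a k q M : ℕ)
  (F : MultilinearMap ℂ (fun _ : Fin a => MvPolynomial (Fin a) ℂ) ℂ),
  Rel (k + 1) (q + 1) (linS a) F → ∀ l ∈ linS a, q * a + k + 2 ≤ M →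
  ∀ (ι : Fin M × Fin a ↪ (Fin k ⊕ (Fin a × Fin (q + 1))) × Fin a)
    (w : (Fin k ⊕ (Fin a × Fin (q + 1))) × Fin a → Fin a),
    colSum ι (fun w => ∑ e : Equiv.Perm (Fin k ⊕ (Fin a × Fin (q + 1))),
      ∑ σ : Fin k → Equiv.Perm (Fin a), wv (slot e σ) (mulL l F) w) w = 0

/-- (S6) the relation from words. -/
def S6 : Prop := ∀ (a k q : ℕ)
  (F : MultilinearMap ℂ (fun _ : Fin a => MvPolynomial (Fin a) ℂ) ℂ),
  (∀ w : (Fin k ⊕ (Fin a × Fin q)) × Fin a → Fin a,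
    ∑ e : Equiv.Perm (Fin k ⊕ (Fin a × Fin q)), ∑ σ : Fin k → Equiv.Perm (Fin a),
      wv (slot e σ) F w = 0) → Rel k q (linS a) F

/-- (S7) one more column. -/
def S7 : Prop := ∀ (A : Type) [CommRing A] [Algebra ℂ A] (L : Submodule ℂ A) (c : ℕ)
  (φ : MultilinearMap ℂ (fun _ : Fin (c + 3) => A) ℂ) (x : Fin (c + 3) → A), (∀ i, x i ∈ L) →
  (∀ l ∈ L, ∀ y : Fin (c + 3) → A, (∀ i, y i ∈ L ^ (c + 1)) → φ (fun i => l * y i) = 0) →
  ∀ w ∈ L, ∀ v : Fin (c + 3) → A, v 0 ∈ L ^ (c + 1) → (∀ p, p ≠ 0 → v p ∈ L ^ c) →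
    (altC x φ) (fun p => if p = 0 then v 0 else w * v p) = 0

/-- (S8) the cap lemma. -/
def S8 : Prop := ∀ (a j : ℕ)
  (φ : MultilinearMap ℂ (fun _ : Fin a => MvPolynomial (Fin a) ℂ) ℂ), Col (linS a) j φ →
  (∀ P : Fin a → MvPolynomial (Fin a) ℂ, (∀ i, P i ∈ linS a ^ j) →
    (altC (fun i => (X i : MvPolynomial (Fin a) ℂ)) φ) P = 0) →
  ∀ P : Fin a → MvPolynomial (Fin a) ℂ, (∀ i, P i ∈ linS a ^ (j + 1)) → φ P = 0

end Vale.Agent.P181.H983
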