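import Vale.Agent.P181.H983.TallGap
import Vale.Agent.P181.H73.TallQ2

set_option autoImplicit false

/-!
# P181: the few-column theorem, without exceptions for `b ≥ 3 a`
-/

open scoped TensorProduct

namespace Vale.Agent.P181.H983

open Vale.Agent.P181 Vale.Agent.P181.H280

/-- `b = 2 a + 1`, `a` even, `λ_a ≥ a + 1`. -/
theorem base_two (a n : ℕ) (ha : 4 ≤ a) (hae : Even a) (han : a ≤ n) (lam : Fin n → ℕ)
    (h1 : ∀ i : Fin n, (i : ℕ) < a → a + 1 ≤ lam i) :
    plethMult a (2 * a + 1) n lam ≤ plethMult (2 * a + 1) a n lam := by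
  by_cases h : ∀ i : Fin n, (i : ℕ) < a → a + 2 ≤ lam i
  · refine H907.tall_even a (2 * a + 1) n (by omega) hae ⟨a, rfl⟩ (by omega) han lam ?_
    intro i hi
    have := h i hi
    omega
  · push Not at h
    obtain ⟨i, hi, hi2⟩ := h
    refine H73.tallQe a 2 n ha hae le_rfl lam han (fun i hi => ?_) (fun i hi => ?_) ⟨i, hi, ?_⟩
    · have := h1 i hi
      omega
    · have := h1 i hi
      omega
    · omega

/-- **The few-column theorem**: `b ≥ 2 a`, `1 ≤ k = b mod a ≤ a - 4` (or `k = 1`, `a ≥ 4`),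
`λ_a ≥ max (k + 4, k + 2 ⌊b/a⌋ - 1) - (k mod 2)`.  No exception for `b ≥ 3 a`; for `2 a < b < 3 a`
the only exception is `λ_a = b - a` with `a + b` odd, `k ≠ 1` and `2 k + 3 > a`. -/
theorem tallF_all (a b n : ℕ) (ha : 3 ≤ a) (hab : 2 * a ≤ b) (han : a ≤ n) (lam : Fin n → ℕ)
    (hk : 1 ≤ b % a) (hka : b % a + 4 ≤ a ∨ (b % a = 1 ∧ 4 ≤ a))
    (hlo : ∀ i : Fin n, (i : ℕ) < a → b % a + 4 ≤ lam i + (b % a) % 2 ∧
      b % a + 2 * (b / a) ≤ lam i + 1 + (b % a) % 2)
    (hex : 3 * a ≤ b ∨ 2 * (b % a) + 3 ≤ a ∨ b % a = 1 ∨ Even (a + b % a) ∨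
      (∃ i : Fin n, (i : ℕ) < a ∧ lam i + a < b) ∨
      ∀ i : Fin n, (i : ℕ) < a → b + 1 ≤ lam i + a) :
    plethMult a b n lam ≤ plethMult b a n lam := by
  by_cases hgap : ∃ i : Fin n, (i : ℕ) < a ∧ lam i + a < b
  · exact tallF_one a b n ha hab han lam hk hka hlo (Or.inr (Or.inr (Or.inr (Or.inl hgap))))
  by_cases h1 : ∀ i : Fin n, (i : ℕ) < a → b + 1 ≤ lam i + a
  · exact tallF_one a b n ha hab han lam hk hka hlo (Or.inr (Or.inr (Or.inr (Or.inr h1))))
  by_cases hE : Even (a + b % a)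
  · exact tallF_one a b n ha hab han lam hk hka hlo (Or.inr (Or.inl hE))
  by_cases h2 : 2 * (b % a) + 3 ≤ a
  · exact tallF_one a b n ha hab han lam hk hka hlo (Or.inl h2)
  have hdm : a * (b / a) + b % a = b := Nat.div_add_mod b a
  have hmod : b % a < a := Nat.mod_lt _ (by omega)
  push Not at hgap h1
  obtain ⟨j, hj, hj2⟩ := h1
  have hcase : 3 * a ≤ b ∨ b % a = 1 := by
    rcases hex with h | h | h | h | ⟨i, hi, hi2⟩ | h
    · exact Or.inl h
    · exact absurd h h2
    · exact Or.inr h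
    · exact absurd h hE
    · have := hgap i hi
      omega
    · have := h j hj
      omega
  rcases hcase with h3 | h3
  · rcases Nat.even_or_odd a with hae | hao
    · -- reduction to `2 a + 1`
      have h4 : Even (a * (b / a)) := hae.mul_right _
      rw [Nat.not_even_iff_odd] at hE
      obtain ⟨c, rfl⟩ : ∃ c, b = (2 * a + 1) + c := ⟨b - (2 * a + 1), by omega⟩
      have hce : Even c := by
        obtain ⟨u, hu⟩ := hae
        obtain ⟨v, hv⟩ := hE
        obtain ⟨w, hw⟩ := h4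
        rw [Nat.even_iff]
        omega
      have hca : a ≤ c := by
        obtain ⟨u, hu⟩ := hae
        obtain ⟨v, hv⟩ := hce
        omega
      refine TQ.col_sub ha han hce hca lam (fun i hi => ?_) ?_
      · have := hgap i hi
        omega
      · refine base_two a n (by omega) hae han _ (fun i hi => ?_)
        have := hgap i hi
        rw [if_pos hi]
        omega
    · exact tallF_one a b n ha hab han lam hk hka hlo (Or.inr (Or.inr (Or.inl ⟨hao, h3⟩)))
  · -- `k = 1`, `a = 4`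
    have ha4 : a = 4 := by omega
    subst ha4
    rw [h3] at hdm
    have h5 : 2 ≤ b / 4 := by omega
    have h6 := H73.tallQe 4 (b / 4) n le_rfl ⟨2, rfl⟩ h5 lam han (fun i hi => by
      have := (hlo i hi).1
      omega) (fun i hi => by
      have := (hlo i hi).2
      omega) ⟨j, hj, by omega⟩
    have h7 : b / 4 * 4 + 1 = b := by omega
    rwa [h7] at h6

end Vale.Agent.P181.H983
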