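import Vale.Agent.P181.H983.TallOne

set_option autoImplicit false

/-!
# P181: `λ_a ≥ b - a + 1`, including `b = 2 a`, and the few-column theorem with one exception less
-/

open scoped TensorProduct

namespace Vale.Agent.P181.H983

open Vale.Agent.P181 Vale.Agent.P181.H280

/-- **Foulkes' inequality for `λ_a ≥ b - a + 1`**, `a + b` odd, and `a` even, or `b = a + 1`, or
`b ≥ 2 a`. -/
theorem tall_oneE (a b n : ℕ) (ha : 3 ≤ a) (hab : a ≤ b) (han : a ≤ n) (hodd : Odd (a + b))
    (hc : Even a ∨ b = a + 1 ∨ 2 * a ≤ b) (lam : Fin n → ℕ)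
    (h1 : ∀ i : Fin n, (i : ℕ) < a → b + 1 ≤ lam i + a) :
    plethMult a b n lam ≤ plethMult b a n lam := by
  rcases hc with h | h | h
  · exact tall_one a b n ha hab han hodd (Or.inl h) lam h1
  · exact tall_one a b n ha hab han hodd (Or.inr (Or.inl h)) lam h1
  · rcases Nat.eq_or_lt_of_le h with h2 | h2
    · subst h2
      apply plethMult_le (by omega) (by omega) han
      intro i hi
      have := h1 i hi
      omega
    · exact tall_one a b n ha hab han hodd (Or.inr (Or.inr h2)) lam h1

/-- **Few columns, `b mod a ≤ a - 4`**: `tallF` with one exception less (the remaining one is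
`λ_a = b - a`). -/
theorem tallF_one (a b n : ℕ) (ha : 3 ≤ a) (hab : 2 * a ≤ b) (han : a ≤ n) (lam : Fin n → ℕ)
    (hk : 1 ≤ b % a) (hka : b % a + 4 ≤ a ∨ (b % a = 1 ∧ 4 ≤ a))
    (hlo : ∀ i : Fin n, (i : ℕ) < a → b % a + 4 ≤ lam i + (b % a) % 2 ∧
      b % a + 2 * (b / a) ≤ lam i + 1 + (b % a) % 2)
    (hex : 2 * (b % a) + 3 ≤ a ∨ Even (a + b % a) ∨ (Odd a ∧ 3 * a ≤ b) ∨
      (∃ i : Fin n, (i : ℕ) < a ∧ lam i + a < b) ∨
      ∀ i : Fin n, (i : ℕ) < a → b + 1 ≤ lam i + a) :
    plethMult a b n lam ≤ plethMult b a n lam := by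
  rcases hex with h | h | h | h | h
  · exact TQ.tallF a b n ha hab han lam hk hka hlo (Or.inl h)
  · exact TQ.tallF a b n ha hab han lam hk hka hlo (Or.inr (Or.inl h))
  · exact TQ.tallF a b n ha hab han lam hk hka hlo (Or.inr (Or.inr (Or.inl h)))
  · exact TQ.tallF a b n ha hab han lam hk hka hlo (Or.inr (Or.inr (Or.inr h)))
  · by_cases h2 : Even (a + b % a)
    · exact TQ.tallF a b n ha hab han lam hk hka hlo (Or.inr (Or.inl h2))
    · by_cases h3 : Odd a ∧ 3 * a ≤ b
      · exact TQ.tallF a b n ha hab han lam hk hka hlo (Or.inr (Or.inr (Or.inl h3)))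
      · have hmod : b % a < a := Nat.mod_lt _ (by omega)
        have hdm : a * (b / a) + b % a = b := Nat.div_add_mod b a
        have hodd : Odd (a + b) := by
          rcases Nat.even_or_odd a with hae | hao
          · have h4 : Even (a * (b / a)) := hae.mul_right _
            rw [Nat.not_even_iff_odd] at h2
            obtain ⟨u, hu⟩ := hae
            obtain ⟨v, hv⟩ := h2
            obtain ⟨w, hw⟩ := h4
            exact ⟨v + w, by omega⟩
          · have h4 : b < 3 * a := by
              by_contra hcon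
              exact h3 ⟨hao, not_lt.1 hcon⟩
            have h5 : b / a = 2 := by
              apply Nat.div_eq_of_lt_le <;> omega
            rw [h5] at hdm
            rw [Nat.not_even_iff_odd] at h2
            obtain ⟨v, hv⟩ := h2
            exact ⟨v + a, by omega⟩
        exact tall_oneE a b n ha (by omega) han hodd (Or.inr (Or.inr hab)) lam h

end Vale.Agent.P181.H983
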