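import Vale.Agent.P181.TQ.Union
import Vale.Agent.P181.H715.LT.Plug

set_option autoImplicit false

/-!
# P181: one more column, `λ_a ≥ b - a + 1`, when `a + b` is odd

`a` even (helper907 / helper493); `b = a + 1` (line LT, helper663's positivity); `a` odd, `b` even,
`b > 2 a` (from `b = a + 1` by adding an even number of full columns).
-/

open scoped TensorProduct

namespace Vale.Agent.P181.H983

open Vale.Agent.P181 Vale.Agent.P181.H280

/-- **Foulkes' inequality for `λ_a ≥ b - a + 1`**, `a + b` odd, and `a` even, or `b = a + 1`, or
`b > 2 a`. -/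
theorem tall_one (a b n : ℕ) (ha : 3 ≤ a) (hab : a ≤ b) (han : a ≤ n) (hodd : Odd (a + b))
    (hc : Even a ∨ b = a + 1 ∨ 2 * a < b) (lam : Fin n → ℕ)
    (h1 : ∀ i : Fin n, (i : ℕ) < a → b + 1 ≤ lam i + a) :
    plethMult a b n lam ≤ plethMult b a n lam := by
  rcases Nat.even_or_odd a with hae | hao
  · have hbo : Odd b := by
      rcases Nat.even_or_odd b with h | h
      · exact absurd (hae.add h) (Nat.not_even_iff_odd.2 hodd)
      · exact h
    exact H907.tall_even a b n ha hae hbo hab han lam h1
  · by_cases hb : b = a + 1
    · subst hb
      exact H715.LT.tallTwo a n lam ha han (fun i hi => by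
        have := h1 i hi
        omega)
    · have hb2 : 2 * a < b := by
        rcases hc with h | h | h
        · exact absurd h (Nat.not_even_iff_odd.2 hao)
        · exact absurd h hb
        · exact h
      obtain ⟨c, rfl⟩ : ∃ c, b = (a + 1) + c := ⟨b - (a + 1), by omega⟩
      have hce : Even c := by
        rcases Nat.even_or_odd c with h | h
        · exact h
        · exfalso
          obtain ⟨u, hu⟩ := hao
          obtain ⟨v, hv⟩ := h
          obtain ⟨w, hw⟩ := hodd
          omega
      refine TQ.col_sub ha han hce (by omega) lam (fun i hi => ?_) ?_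
      · have := h1 i hi
        omega
      · refine H715.LT.tallTwo a n _ ha han (fun i hi => ?_)
        have := h1 i hi
        rw [if_pos hi]
        omega

end Vale.Agent.P181.H983
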